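import Vale.Agent.P286E.QS
import Vale.Agent.P286EG.Ag3

/-!
# The odd component: definitions and statements
-/

set_option linter.all false

namespace Vale.Agent.P286EJ

open CategoryTheory Matrix Vale.Agent.P286 Vale.Agent.P286E Vale.Agent.P286EG

noncomputable section

/-- The full subcategory of the test objects with the property `P`. -/
def sub (T : St.TSite) (P : T.C → Prop) : St.TSite where
  C := {X : T.C // P X}
  cat := { Hom := fun X Y => X.1 ⟶ Y.1
           id := fun X => 𝟙 X.1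
           comp := fun φ ψ => φ ≫ ψ
           id_comp := fun φ => Category.id_comp φ
           comp_id := fun φ => Category.comp_id φ
           assoc := fun φ ψ χ => Category.assoc φ ψ χ }
  A X := T.A X.1
  f φ := T.f φ
  dl φ := T.dl φ
  cen X := T.cen X.1
  s := T.s

/-- The arrows of the classifying stack of a constant group. -/
@[ext]
structure BM (K : Type) (A B : SmAlg) : Type where
  f : A.Hm B
  k : K

/-- The classifying stack of a constant group. -/
def BK (K : Type) [Group K] (s : ℂ) : St.TSite where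
  C := SmAlg
  cat := { Hom := BM K
           id := fun A => ⟨AlgHom.id ℂ A.R, 1⟩
           comp := fun φ ψ => ⟨ψ.f.comp φ.f, ψ.k * φ.k⟩
           id_comp := fun φ => BM.ext rfl (mul_one _)
           comp_id := fun φ => BM.ext rfl (one_mul _)
           assoc := fun φ ψ χ => BM.ext rfl (mul_assoc _ _ _).symm }
  A X := X
  f φ := BM.f φ
  dl _ := 1
  cen _ := ∅
  s := s

/-- The group of order four. -/
abbrev K4 : Type := ℤˣ × ℤˣ

/-- The signs. -/
def sg (k : K4) : Fin 3 → ℤˣ := ![k.1, k.2, k.1 * k.2]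

/-- The diagonal matrix of the signs. -/
def dg (A : Type) [CommRing A] (k : K4) : Matrix (Fin 3) (Fin 3) A :=
  diagonal fun i => ((sg k i : ℤ) : A)

/-- `D`-modules on the classifying stack of the group of order four. -/
def BKV : Prop := ∀ s : ℂ, EQV (WD.st (BK K4 s)) WD.v4

section

variable (e : Fin 3 → ℂ) {A : Type} [CommRing A] [Algebra ℂ A]

/-- The diagonal matrix with the entries `e`. -/
def dm (A : Type) [CommRing A] [Algebra ℂ A] : Matrix (Fin 3) (Fin 3) A :=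
  diagonal fun i => algebraMap ℂ A (e i)

/-- A symmetric matrix with the eigenvalues `e`. -/
def Sym (X : Matrix (Fin 3) (Fin 3) A) : Prop :=
  Xᵀ = X ∧ ∀ i, (X - algebraMap ℂ A (e i) • (1 : Matrix (Fin 3) (Fin 3) A)).det = 0

/-- A frame which diagonalises `X`. -/
def IsFr (X h : Matrix (Fin 3) (Fin 3) A) : Prop := hᵀ * h = 1 ∧ h.det = 1 ∧ h * X = dm e A * h

end

/-- The algebra of frames. -/
structure Fr (e : Fin 3 → ℂ) (A : SmAlg) (X : Matrix (Fin 3) (Fin 3) A.R) : Type 1 where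
  B : SmAlg
  i : A.Hm B
  h : Matrix (Fin 3) (Fin 3) B.R
  fr : IsFr e (X.map i) h
  lift : ∀ (C : Type) [CommRing C] [Algebra ℂ C] (φ : A.R →ₐ[ℂ] C) (g : Matrix (Fin 3) (Fin 3) C),
    IsFr e (X.map φ) g → ∃! ψ : B.R →ₐ[ℂ] C, (∀ a, ψ (i a) = φ a) ∧ h.map ψ = g
  et : i.r.FormallyEtale
  flat : i.r.Flat
  inj : Function.Injective i
  inv : ∀ (σ : K4 → B.Hm B), (∀ k a, σ k (i a) = i a) → (∀ k, h.map (σ k) = dg B.R k * h) →
    ∀ b, (∀ k, σ k b = b) → ∃ a, i a = b

/-- Existence of the algebra of frames. -/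
def FRE : Prop := ∀ e : Fin 3 → ℂ, Function.Injective e →
  ∀ (A : SmAlg) (X : Matrix (Fin 3) (Fin 3) A.R), Sym e X → Nonempty (Fr e A X)

/-- Base change of the algebra of frames. -/
def FRP : Prop := ∀ (e : Fin 3 → ℂ) (A A' : SmAlg) (X : Matrix (Fin 3) (Fin 3) A.R)
  (X' : Matrix (Fin 3) (Fin 3) A'.R) (F : Fr e A X) (F' : Fr e A' X') (φ : A.Hm A')
  (g : Matrix (Fin 3) (Fin 3) A'.R), gᵀ * g = 1 → g.det = 1 → g * X.map φ = X' * g →
  ∀ ψ : F.B.Hm F'.B, (∀ a, ψ (F.i a) = F'.i (φ a)) → F.h.map ψ = F'.h * g.map F'.i →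
  PO φ.r F.i.r F'.i.r ψ.r

/-- A frame over the base splits the algebra of frames. -/
def FRS : Prop := ∀ e : Fin 3 → ℂ, Function.Injective e →
  ∀ (A : SmAlg) (X : Matrix (Fin 3) (Fin 3) A.R) (F : Fr e A X) (ev : F.B.Hm A)
    (σ : K4 → F.B.Hm F.B), (∀ a, ev (F.i a) = a) → (∀ k a, σ k (F.i a) = F.i a) →
    (∀ k, F.h.map (σ k) = dg F.B.R k * F.h) →
    ∃ ε : F.B.R, ε * ε = ε ∧ ∑ k, σ k ε = 1 ∧ (∀ k, k ≠ 1 → σ k ε * ε = 0) ∧
      ∀ b, ε * b = ε * F.i (ev b) ∧ ev ε = 1

/-- A skew matrix which commutes with `X` vanishes. -/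
def SKW : Prop := ∀ e : Fin 3 → ℂ, Function.Injective e →
  ∀ (A : Type) [CommRing A] [Algebra ℂ A] (X Z : Matrix (Fin 3) (Fin 3) A), Sym e X →
    Zᵀ = -Z → Z * X = X * Z → Z = 0

/-- The bundle has no cohomology. -/
def Odd {E : Ell} (X : Ob E SO3) : Prop := IsCompl X.M (LinearMap.ker (pol SO3.N X.A.R))

/-- The odd component. -/
def ODD : Prop := ∀ (E : Ell) (c : ℂ), EQV (WD.st (sub (DE E SO3 c) Odd)) WD.v4

end

end Vale.Agent.P286EJ
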