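import Vale.Agent.P286EJ.Odd
import Vale.Agent.P286EB.Cr

/-!
# The odd component as an open part
-/

set_option linter.all false

namespace Vale.Agent.P286EJ

open Vale.Agent.P286 Vale.Agent.P286E Vale.Agent.P286EB
open Vale.Agent.P286EO (Sub Opn)

theorem odd_iff {E : Ell} (X : Ob E SO3) {v : ℕ × Fin 3 → Fin 3 → Ls X.A.R} (hv : Adm v)
    (e : LinearMap.range (lin v) = lat X) : IsUnit ((Th v).coeff (-3)) ↔ Odd X := by
  have h : (Th v).coeff (-3) = fdet (pol 3 X.A.R ∘ₗ lin v) := Th_lead hv.1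
  rw [h, hv.isUnit_iff, e]
  rfl

/-- The open part where the coefficient of `y` in `Θ` is invertible. -/
theorem odd_opn (bkv : BKV) (E : Ell) (c : ℂ) (γ : ∀ X : Ob E SO3, X.A.R)
    (h : ∀ X : Ob E SO3, ∃ v : ℕ × Fin 3 → Fin 3 → Ls X.A.R, Adm v ∧
      LinearMap.range (lin v) = lat X ∧ γ X = (Th v).coeff (-3)) :
    EQV (WD.st (Opn (DE E SO3 c) γ)) WD.v4 :=
  odd bkv E c _ fun X => by
    obtain ⟨v, h1, h2, h3⟩ := h X
    exact h3 ▸ odd_iff X h1 h2

end Vale.Agent.P286EJ
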