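import Vale.Agent.P286EJ.Site
import Vale.Agent.P286EJF.Main
import Vale.Agent.P286EH.Gc

/-!
# The frame bundle of the odd component
-/

set_option linter.all false

namespace Vale.Agent.P286EJ

open CategoryTheory Matrix Vale.Agent.P286 Vale.Agent.P286E Vale.Agent.P286EH Vale.Agent.P286EG
open Vale.Agent.P286EJF (fre frp frs)

noncomputable section

section

variable {A B C : Type} [CommRing A] [Algebra ℂ A] [CommRing B] [Algebra ℂ B] [CommRing C]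
  [Algebra ℂ C]

theorem fe_of_bij {i : A →ₐ[ℂ] B} (h : Function.Bijective i) : (i : A →+* B).FormallyEtale := by
  letI : Algebra A B := (i : A →+* B).toAlgebra
  exact Algebra.FormallyEtale.of_equiv (AlgEquiv.ofBijective (Algebra.ofId A B) h)

theorem dg_map (f : A →ₐ[ℂ] B) (k : K4) : (dg A k).map f = dg B k :=
  P286EJF.dg_map (f : A →+* B) k

theorem dg_mul (k l : K4) : dg A (k * l) = dg A k * dg A l := by
  rw [dg, dg, dg, diagonal_mul_diagonal]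
  refine congrArg diagonal (funext fun i => ?_)
  fin_cases i <;> simp [sg]
  ring

theorem dg_one : dg A 1 = 1 := by
  rw [dg, ← diagonal_one]
  refine congrArg diagonal (funext fun i => ?_)
  fin_cases i <;> simp [sg]

theorem k4_sq (k : K4) : k * k = 1 := Prod.ext (Int.units_mul_self _) (Int.units_mul_self _)

theorem dg_orth (k : K4) : (dg A k)ᵀ * dg A k = 1 := by
  rw [show (dg A k)ᵀ = dg A k from diagonal_transpose _, ← dg_mul, k4_sq, dg_one]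

theorem dg_det (k : K4) : (dg A k).det = 1 := by
  rw [dg, det_diagonal, Fin.prod_univ_three]
  have h1 := P286EJF.usq (A := A) k.1
  have h2 := P286EJF.usq (A := A) k.2
  simp only [sg, cons_val_zero, cons_val_one, cons_val, Units.val_mul, Int.cast_mul]
  linear_combination (((k.2 : ℤ) : A) * ((k.2 : ℤ) : A)) * h1 + h2

theorem dg_dm (e : Fin 3 → ℂ) (k : K4) : dg A k * dm e A = dm e A * dg A k := by
  rw [dg, dm, diagonal_mul_diagonal, diagonal_mul_diagonal]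
  exact congrArg diagonal (funext fun i => mul_comm _ _)

theorem mp_mp (m : Matrix (Fin 3) (Fin 3) A) (f : A →ₐ[ℂ] B) (g : B →ₐ[ℂ] C) :
    (m.map f).map g = m.map (g.comp f) := rfl

theorem mp_one (f : A →ₐ[ℂ] B) : (1 : Matrix (Fin 3) (Fin 3) A).map f = 1 :=
  Matrix.map_one _ (map_zero f) (map_one f)

theorem mp_congr (m : Matrix (Fin 3) (Fin 3) A) {f g : A → B} (h : ∀ a, f a = g a) :
    m.map f = m.map g := congrArg m.map (funext h)

theorem orth_map {h : Matrix (Fin 3) (Fin 3) A} (h1 : hᵀ * h = 1) (f : A →ₐ[ℂ] B) :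
    (h.map f)ᵀ * h.map f = 1 := by rw [← transpose_map, ← map_mul', h1, mp_one]

theorem det_map {h : Matrix (Fin 3) (Fin 3) A} (h1 : h.det = 1) (f : A →ₐ[ℂ] B) :
    (h.map f).det = 1 := (P286EJF.det_map (f : A →+* B) h).trans (by rw [h1, map_one])

variable {e : Fin 3 → ℂ} {X X' h g : Matrix (Fin 3) (Fin 3) A}

theorem IsFr.map (H : IsFr e X h) (f : A →ₐ[ℂ] B) : IsFr e (X.map f) (h.map f) :=
  ⟨orth_map H.1 f, det_map H.2.1 f, by rw [← map_mul', H.2.2, map_mul', dm_map]⟩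

theorem IsFr.mul (H : IsFr e X' h) (h1 : gᵀ * g = 1) (h2 : g.det = 1) (h3 : g * X = X' * g) :
    IsFr e X (h * g) :=
  ⟨by rw [transpose_mul, Matrix.mul_assoc, ← Matrix.mul_assoc hᵀ, H.1, Matrix.one_mul, h1],
    by rw [det_mul, H.2.1, h2, one_mul],
    by rw [Matrix.mul_assoc, h3, ← Matrix.mul_assoc, H.2.2, Matrix.mul_assoc]⟩

theorem IsFr.dg (H : IsFr e X h) (k : K4) : IsFr e X (dg A k * h) :=
  IsFr.mul ⟨dg_orth k, dg_det k, dg_dm e k⟩ H.1 H.2.1 H.2.2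

end

theorem Fr.ext {e : Fin 3 → ℂ} {A : SmAlg} {X : Matrix (Fin 3) (Fin 3) A.R} (F : Fr e A X)
    {C : Type} [CommRing C] [Algebra ℂ C] {ψ ψ' : F.B.R →ₐ[ℂ] C}
    (h1 : ∀ a, ψ (F.i a) = ψ' (F.i a)) (h2 : F.h.map ψ = F.h.map ψ') : ψ = ψ' :=
  (F.lift C (ψ.comp F.i) _ (F.fr.map ψ)).unique ⟨fun _ => rfl, rfl⟩
    ⟨fun a => (h1 a).symm, h2.symm⟩

namespace OS

variable {T : St.TSite} {e : Fin 3 → ℂ} (O : OS T e)

include O in
theorem f_id (X : T.C) (a : T.R X) : T.f (𝟙 X) a = a := by rw [O.good.f_id]; rfl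

include O in
theorem f_comp {X Y Z : T.C} (φ : X ⟶ Y) (ψ : Y ⟶ Z) (a : T.R X) :
    T.f (φ ≫ ψ) a = T.f ψ (T.f φ a) := by rw [O.good.f_comp]; rfl

theorem ext' {X Y : T.C} {φ ψ : X ⟶ Y} (h : ∀ a, T.f φ a = T.f ψ a) (h' : O.hm φ = O.hm ψ) :
    φ = ψ := O.ext φ ψ (AlgHom.ext h) h'

theorem ι_bij (A : SmAlg) : Function.Bijective (O.ι A) :=
  Function.bijective_iff_has_inverse.2 ⟨O.κ A, O.κ_ι A, O.ι_κ A⟩

theorem ex_j {A B : SmAlg} (φ : BM K4 A B) : ∃ ψ : O.pt A ⟶ O.pt B,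
    (∀ a, T.f ψ (O.ι A a) = O.ι B (φ.f a)) ∧ O.hm ψ = dg _ φ.k := by
  obtain ⟨ψ, h1, h2⟩ := O.mk' (O.pt A) (O.pt B)
    (((O.ι B).comp φ.f).comp (O.κ A)) (dg _ φ.k) (dg_orth _) (dg_det _)
    (by rw [O.xm_pt, O.xm_pt, dm_map, dg_dm])
  exact ⟨ψ, fun a => by rw [h1, AlgHom.comp_apply, O.κ_ι, AlgHom.comp_apply], h2⟩

/-- The morphism of framed objects. -/
def jm {A B : SmAlg} (φ : BM K4 A B) : O.pt A ⟶ O.pt B := (O.ex_j φ).choose

theorem f_jm {A B : SmAlg} (φ : BM K4 A B) (a : A.R) :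
    T.f (O.jm φ) (O.ι A a) = O.ι B (φ.f a) := (O.ex_j φ).choose_spec.1 a

theorem hm_jm {A B : SmAlg} (φ : BM K4 A B) : O.hm (O.jm φ) = dg _ φ.k := (O.ex_j φ).choose_spec.2

theorem dl_jm {A B : SmAlg} (φ : BM K4 A B) : T.dl (O.jm φ) = 1 := by
  have h := O.dl (O.jm φ)
  rwa [O.u_pt, O.u_pt, Units.val_one, map_one, mul_one] at h

theorem pt_ext {A : SmAlg} {Y : T.C} {φ ψ : O.pt A ⟶ Y}
    (h : ∀ a, T.f φ (O.ι A a) = T.f ψ (O.ι A a)) (h' : O.hm φ = O.hm ψ) : φ = ψ :=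
  O.ext' (fun a => by rw [← O.ι_κ A a, h]) h'

theorem jm_comp {A B C : SmAlg} (φ : BM K4 A B) (ψ : BM K4 B C) :
    O.jm (⟨ψ.f.comp φ.f, ψ.k * φ.k⟩ : BM K4 A C) = O.jm φ ≫ O.jm ψ :=
  O.pt_ext (fun a => by rw [O.f_comp, O.f_jm, O.f_jm, O.f_jm]; rfl)
    (by rw [O.hm_comp, O.hm_jm, O.hm_jm, O.hm_jm, dg_map, ← dg_mul])

theorem j_tr {A B : SmAlg} (φ : BM K4 A B) (s : ℂ) (w : B.Der) (w' : (T.A (O.pt B)).Der) (k : ℕ)
    (c : Fin k → B.R) : O.ι B 1 * T.dl (O.jm φ) * (0 - ∑ j, O.ι B (c j) * T.f (O.jm φ) 0) =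
      T.s • (O.ι B 1 * w' (T.dl (O.jm φ))) - s • (T.dl (O.jm φ) * O.ι B (w 1)) := by
  simp [O.dl_jm]

/-- The framed objects. -/
def j (s : ℂ) : EtF T (BK K4 s) where
  ob := O.pt
  map φ := O.jm φ
  map_id A := Sim.of_eq (O.pt_ext (fun a => (O.f_jm _ a).trans (O.f_id _ _).symm)
    ((O.hm_jm _).trans (dg_one.trans (O.hm_id _).symm)))
  map_comp φ ψ := Sim.of_eq (O.jm_comp φ ψ)
  cen _ _ h := h.elim
  i A := O.ι A
  unr A := unr_of_surj (O.ι_bij A).2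
  lf A := etLift (i := O.ι A) (fe_of_bij (O.ι_bij A))
  lf_i A := etLift_i _
  nat φ := O.f_jm φ
  unit φ := O.good.unit _
  b _ _ := 0
  b_add _ _ _ := (add_zero _).symm
  b_smul _ _ _ := (mul_zero _).symm
  b_lie _ _ _ := by simp
  b_tr φ w k c v _ := O.j_tr φ s w _ k c

variable (he : Function.Injective e)

/-- The algebra of frames. -/
def fr (X : T.C) : Fr e (T.A X) (O.xm X) := (fre e he (T.A X) (O.xm X) (O.sym X)).some

theorem ex_cv {X Y : T.C} (φ : X ⟶ Y) : ∃ ψ : (O.fr he X).B.Hm (O.fr he Y).B,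
    (∀ a, ψ ((O.fr he X).i a) = (O.fr he Y).i (T.f φ a)) ∧
      (O.fr he X).h.map ψ = (O.fr he Y).h * (O.hm φ).map (O.fr he Y).i :=
  ((O.fr he X).lift _ ((O.fr he Y).i.comp (T.f φ)) _ ((O.fr he Y).fr.mul (orth_map (O.orth φ) _)
    (det_map (O.det φ) _) (by rw [← mp_mp, ← map_mul', O.conj, map_mul']))).exists

/-- The morphism of the algebras of frames. -/
def cm {X Y : T.C} (φ : X ⟶ Y) : (O.fr he X).B.Hm (O.fr he Y).B := (O.ex_cv he φ).choose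

theorem cm_i {X Y : T.C} (φ : X ⟶ Y) (a : T.R X) :
    O.cm he φ ((O.fr he X).i a) = (O.fr he Y).i (T.f φ a) := (O.ex_cv he φ).choose_spec.1 a

theorem cm_h {X Y : T.C} (φ : X ⟶ Y) :
    (O.fr he X).h.map (O.cm he φ) = (O.fr he Y).h * (O.hm φ).map (O.fr he Y).i :=
  (O.ex_cv he φ).choose_spec.2

/-- The logarithmic derivative. -/
def dlog (X : T.C) (v : (T.A X).Der) : T.R X := ((O.u X)⁻¹ : (T.R X)ˣ) * v (O.u X)

theorem dlog_tr {X Y : T.C} (φ : X ⟶ Y) (w : (T.A Y).Der) (k : ℕ) (c : Fin k → T.R Y)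
    (v : Fin k → (T.A X).Der) (h : ∀ a, w (T.f φ a) = ∑ j, c j * T.f φ (v j a)) :
    T.dl φ * (O.dlog Y w - ∑ j, c j * T.f φ (O.dlog X (v j))) = w (T.dl φ) := by
  have h1 := O.dl φ
  have h2 := congrArg w h1
  have h3 : T.f φ ((O.u X)⁻¹ : (T.R X)ˣ) * T.f φ (O.u X) = 1 := by
    rw [← map_mul, Units.inv_mul, map_one]
  have h4 : (((O.u Y)⁻¹ : (T.R Y)ˣ) : T.R Y) * O.u Y = 1 := Units.inv_mul _
  have h5 : ∑ j, c j * T.f φ (O.dlog X (v j)) =
      T.f φ ((O.u X)⁻¹ : (T.R X)ˣ) * w (T.f φ (O.u X)) := by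
    rw [h, Finset.mul_sum]
    exact Finset.sum_congr rfl fun j _ => by rw [dlog, map_mul, mul_left_comm]
  rw [Derivation.leibniz, smul_eq_mul, smul_eq_mul] at h2
  rw [h5, dlog, ← h2]
  generalize (((O.u Y)⁻¹ : (T.R Y)ˣ) : T.R Y) = q at h4 ⊢
  generalize T.f φ ((O.u X)⁻¹ : (T.R X)ˣ) = p at h3 ⊢
  rw [← h1] at h4
  linear_combination (w (T.dl φ) + T.dl φ * p * w (T.f φ (O.u X))) * h4 -
    (q * T.dl φ ^ 2 * w (T.f φ (O.u X))) * h3

theorem dlog_lie (X : T.C) (v w : (T.A X).Der) :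
    O.dlog X ⁅v, w⁆ = v (O.dlog X w) - w (O.dlog X v) := by
  simp only [dlog, Derivation.commutator_apply, Derivation.leibniz, Derivation.leibniz_of_mul_eq_one _ (O.u X).inv_mul, smul_eq_mul]
  ring

/-- The gauge form. -/
def gf (X : T.C) (v : (T.A X).Der) : (O.fr he X).B.R := (-T.s) • (O.fr he X).i (O.dlog X v)

theorem gf_add (X : T.C) (v w : (T.A X).Der) : O.gf he X (v + w) = O.gf he X v + O.gf he X w := by
  rw [gf, dlog, Derivation.add_apply, mul_add, map_add, smul_add]; rfl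

theorem gf_smul (X : T.C) (a : T.R X) (v : (T.A X).Der) :
    O.gf he X (a • v) = (O.fr he X).i a * O.gf he X v := by
  rw [gf, gf, dlog, Derivation.smul_apply, smul_eq_mul, mul_left_comm, map_mul, mul_smul_comm]; rfl

theorem gf_lie (X : T.C) (v w : (T.A X).Der) : O.gf he X ⁅v, w⁆ =
    etLift (O.fr he X).et v (O.gf he X w) - etLift (O.fr he X).et w (O.gf he X v) := by
  rw [gf, gf, gf, Derivation.map_smul, Derivation.map_smul, etLift_i, etLift_i, O.dlog_lie,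
    map_sub, smul_sub]

/-- The frame bundle. -/
def cv (s : ℂ) : EtF (BK K4 s) T where
  ob X := (O.fr he X).B
  map φ := ⟨O.cm he φ, 1⟩
  map_id X := Sim.of_eq (BM.ext ((O.fr he X).ext (fun a => by rw [O.cm_i, O.f_id]; rfl)
    (by rw [O.cm_h, O.hm_id, mp_one, Matrix.mul_one]; rfl)) rfl)
  map_comp {X Y Z} φ ψ := Sim.of_eq (BM.ext ((O.fr he X).ext
    (ψ' := (O.cm he ψ).comp (O.cm he φ))
    (fun a => by rw [O.cm_i, AlgHom.comp_apply, O.cm_i, O.cm_i, O.f_comp])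
    (by
      rw [← mp_mp, O.cm_h, O.cm_h, map_mul', O.cm_h, O.hm_comp, map_mul', Matrix.mul_assoc, mp_mp,
        mp_mp]
      exact congrArg (_ * ·) (congrArg (_ * ·) (mp_congr _ fun a => (O.cm_i he ψ a).symm))))
    (mul_one _).symm)
  cen X φ h := by rw [O.cen] at h; exact h.elim
  i X := (O.fr he X).i
  unr X := unr_of_fe (O.fr he X).et
  lf X := etLift (O.fr he X).et
  lf_i X := etLift_i _
  nat φ := O.cm_i he φ
  unit _ := isUnit_one
  b := O.gf he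
  b_add := O.gf_add he
  b_smul := O.gf_smul he
  b_lie := O.gf_lie he
  b_tr {X Y} φ w k c v h := by
    have h1 := congrArg (fun a => (-T.s) • (O.fr he Y).i a) (O.dlog_tr φ w k c v h)
    have h2 : (O.fr he Y).i (T.dl φ) * 1 * ((-T.s) • (O.fr he Y).i (O.dlog Y w) -
        ∑ j, (O.fr he Y).i (c j) * O.cm he φ ((-T.s) • (O.fr he X).i (O.dlog X (v j)))) =
        s • ((O.fr he Y).i (T.dl φ) * etLift (O.fr he Y).et w 1) -
          T.s • (1 * (O.fr he Y).i (w (T.dl φ))) := by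
      simp only [map_mul, map_sub, map_sum] at h1
      simp only [map_smul, O.cm_i, mul_one, one_mul, Derivation.map_one_eq_zero, mul_zero,
        smul_zero, zero_sub, mul_smul_comm, ← Finset.smul_sum, ← smul_sub]
      rw [h1, neg_smul]
    exact h2

theorem cv_po (s : ℂ) : (O.cv he s).IsPO := fun X Y φ =>
  frp e _ _ _ _ (O.fr he X) (O.fr he Y) (T.f φ) (O.hm φ) (O.orth φ) (O.det φ) (O.conj φ)
    (O.cm he φ) (O.cm_i he φ) (O.cm_h he φ)

theorem ex_un (X : T.C) : ∃ ψ : X ⟶ O.pt (O.fr he X).B,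
    T.f ψ = (O.ι (O.fr he X).B).comp (O.fr he X).i ∧
      O.hm ψ = (O.fr he X).h.map (O.ι (O.fr he X).B) :=
  have h := (O.fr he X).fr.map (O.ι (O.fr he X).B)
  O.mk' _ _ _ _ h.1 h.2.1 (by rw [O.xm_pt]; exact h.2.2)

/-- The tautological frame. -/
def un (X : T.C) : X ⟶ O.pt (O.fr he X).B := (O.ex_un he X).choose

theorem f_un (X : T.C) (a : T.R X) : T.f (O.un he X) a = O.ι _ ((O.fr he X).i a) := by
  rw [un, (O.ex_un he X).choose_spec.1]; rfl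

theorem hm_un (X : T.C) :
    O.hm (O.un he X) = (O.fr he X).h.map (O.ι (O.fr he X).B) :=
  (O.ex_un he X).choose_spec.2

theorem hm_un_jm (X : T.C) {B : SmAlg} (φ : BM K4 (O.fr he X).B B) :
    O.hm (O.un he X ≫ O.jm φ) = (dg _ φ.k * (O.fr he X).h.map φ.f).map (O.ι B) := by
  rw [O.hm_comp, O.hm_jm, O.hm_un, map_mul', dg_map]
  exact congrArg (_ * ·) (mp_congr _ (O.f_jm φ))

theorem un_nat {X Y : T.C} (φ : X ⟶ Y) : φ ≫ O.un he Y = O.un he X ≫ O.jm ⟨O.cm he φ, 1⟩ :=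
  O.ext' (fun a => by rw [O.f_comp, O.f_comp, O.f_un, O.f_un, O.f_jm, O.cm_i])
    (by
      rw [O.hm_un_jm, dg_one, Matrix.one_mul, O.cm_h, map_mul', O.hm_comp, O.hm_un]
      exact congrArg (_ * ·) (mp_congr _ (O.f_un he Y)))

/-- The unit. -/
def unit (s : ℂ) : Un (O.j s) (O.cv he s) where
  ι := O.un he
  f_i := O.f_un he
  nat φ := Sim.of_eq (O.un_nat he φ)
  unit X := O.good.unit _
  b X v := by
    have h0 := O.dl (O.un he X)
    rw [O.u_pt, Units.val_one] at h0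
    have h1 : T.dl (O.un he X) = O.ι _ ((O.fr he X).i ((O.u X)⁻¹ : (T.R X)ˣ)) := by
      rw [← O.f_un, ← one_mul (T.f _ _), ← h0, mul_assoc, ← map_mul, Units.mul_inv, map_one,
        mul_one]
    have h2 := (O.j s).lf_i _ ((O.cv he s).lf X v) ((O.cv he s).i X ((O.u X)⁻¹ : (T.R X)ˣ))
    rw [(O.cv he s).lf_i, Derivation.leibniz_of_mul_eq_one _ (O.u X).inv_mul] at h2
    refine Eq.trans ?_ (congrArg (T.s • ·) ((congrArg _ h1).trans h2)).symm
    change T.dl (O.un he X) * (0 + O.ι _ ((-T.s) • (O.fr he X).i (O.dlog X v))) =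
      T.s • O.ι _ ((O.fr he X).i _)
    rw [h1, zero_add, map_smul, mul_smul_comm, ← map_mul, ← map_mul, neg_smul, ← smul_neg,
      ← map_neg, ← map_neg, dlog, smul_eq_mul]
    congr 3
    ring

theorem ex_sg (X : T.C) (k : K4) : ∃ σ : (O.fr he X).B.Hm (O.fr he X).B,
    (∀ a, σ ((O.fr he X).i a) = (O.fr he X).i a) ∧ (O.fr he X).h.map σ = dg _ k * (O.fr he X).h :=
  ((O.fr he X).lift _ (O.fr he X).i _ ((O.fr he X).fr.dg k)).exists

/-- The deck transformations. -/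
def σ (X : T.C) (k : K4) : (O.fr he X).B.Hm (O.fr he X).B := (O.ex_sg he X k).choose

theorem σ_i (X : T.C) (k : K4) (a : T.R X) : O.σ he X k ((O.fr he X).i a) = (O.fr he X).i a :=
  (O.ex_sg he X k).choose_spec.1 a

theorem σ_h (X : T.C) (k : K4) : (O.fr he X).h.map (O.σ he X k) = dg _ k * (O.fr he X).h :=
  (O.ex_sg he X k).choose_spec.2

theorem σ_one (X : T.C) : O.σ he X 1 = AlgHom.id ℂ _ :=
  (O.fr he X).ext (O.σ_i he X 1) (by rw [O.σ_h, dg_one, Matrix.one_mul]; rfl)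

theorem σ_mul (X : T.C) (k l : K4) : O.σ he X (k * l) = (O.σ he X l).comp (O.σ he X k) :=
  (O.fr he X).ext (fun a => by rw [AlgHom.comp_apply, O.σ_i, O.σ_i, O.σ_i])
    (by rw [← mp_mp, O.σ_h, O.σ_h, map_mul', dg_map, O.σ_h, dg_mul, Matrix.mul_assoc])

theorem σ_cm {X Y : T.C} (φ : X ⟶ Y) (k : K4) :
    (O.σ he Y k).comp (O.cm he φ) = (O.cm he φ).comp (O.σ he X k) :=
  (O.fr he X).ext (fun a => by rw [AlgHom.comp_apply, AlgHom.comp_apply, O.σ_i, O.cm_i, O.σ_i])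
    (by
      rw [← mp_mp, ← mp_mp, O.cm_h, O.σ_h, map_mul', map_mul', O.σ_h, dg_map, O.cm_h,
        Matrix.mul_assoc]
      exact congrArg (_ * ·) (congrArg (_ * ·) (mp_congr _ (O.σ_i he Y k))))

theorem un_σ (X : T.C) (k : K4) : O.un he X ≫ O.jm ⟨O.σ he X k, k⟩ = O.un he X :=
  O.ext' (fun a => by rw [O.f_comp, O.f_un, O.f_jm, O.σ_i])
    (by rw [O.hm_un_jm, O.σ_h, ← Matrix.mul_assoc, ← dg_mul, k4_sq, dg_one, Matrix.one_mul, O.hm_un])

theorem ex_ev (A : SmAlg) : ∃ ψ : (O.fr he (O.pt A)).B.Hm A,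
    (∀ a, ψ ((O.fr he (O.pt A)).i a) = O.κ A a) ∧
      (O.fr he (O.pt A)).h.map ψ = 1 :=
  ((O.fr he (O.pt A)).lift _ _ 1 ⟨by simp, det_one, by
    rw [O.xm_pt, dm_map, Matrix.one_mul, Matrix.mul_one]⟩).exists

/-- The evaluation at the given frame. -/
def ev (A : SmAlg) : (O.fr he (O.pt A)).B.Hm A := (O.ex_ev he A).choose

theorem ev_i (A : SmAlg) (a : A.R) : O.ev he A ((O.fr he (O.pt A)).i (O.ι A a)) = a :=
  ((O.ex_ev he A).choose_spec.1 _).trans (O.κ_ι A a)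

theorem ev_h (A : SmAlg) : (O.fr he (O.pt A)).h.map (O.ev he A) = 1 := (O.ex_ev he A).choose_spec.2

theorem ev_nat {A B : SmAlg} (φ : BM K4 A B) : (O.ev he B).comp (O.cm he (O.jm φ)) =
    φ.f.comp ((O.ev he A).comp (O.σ he (O.pt A) φ.k)) :=
  (O.fr he (O.pt A)).ext
    (fun a => by
      obtain ⟨a, rfl⟩ := (O.ι_bij A).2 a
      simp only [AlgHom.comp_apply]
      rw [O.cm_i, O.f_jm, O.ev_i, O.σ_i, O.ev_i])
    (by
      rw [← mp_mp, ← mp_mp, ← mp_mp, O.cm_h, O.σ_h, O.hm_jm, map_mul', map_mul', O.ev_h, O.ev_h,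
        dg_map, dg_map, dg_map, Matrix.one_mul, Matrix.mul_one, dg_map])

theorem ex_idem (A : SmAlg) : ∃ ε : (O.fr he (O.pt A)).B.R, ε * ε = ε ∧
    ∑ k, O.σ he (O.pt A) k ε = 1 ∧ (∀ k, k ≠ 1 → O.σ he (O.pt A) k ε * ε = 0) ∧
    (∀ b, ε * b = ε * (O.fr he (O.pt A)).i (O.ι A (O.ev he A b))) ∧ O.ev he A ε = 1 := by
  obtain ⟨ε, h1, h2, h3, h4⟩ := frs e he _ _ (O.fr he (O.pt A))
    ((O.ι A).comp (O.ev he A)) (O.σ he (O.pt A))
    (fun a => by
      obtain ⟨a, rfl⟩ := (O.ι_bij A).2 a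
      exact congrArg (O.ι A) (O.ev_i he A a)) (O.σ_i he _) (O.σ_h he _)
  exact ⟨ε, h1, h2, h3, fun b => (h4 b).1, (O.ι_bij A).1 ((h4 0).2.trans (map_one _).symm)⟩

end OS

end

end Vale.Agent.P286EJ
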