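import Vale.Agent.P286EJ.Defs
import Vale.Agent.P286EN.Lat
import Vale.Agent.P286EF.Adm
import Vale.Agent.P286EF.Grp
import Vale.Agent.P286ER.Reg
import Vale.Agent.P286EB.Th

/-!
# Orthogonal lattices of rank three without cohomology
-/

set_option linter.all false

namespace Vale.Agent.P286EJ

open Matrix Vale.Agent.P286 Vale.Agent.P286E Vale.Agent.P286EN
open Vale.Agent.P286ER (ys)

noncomputable section

attribute [-instance] HahnSeries.powerSeriesAlgebra

theorem cross_mulVec {R : Type} [CommRing R] (b : Matrix (Fin 3) (Fin 3) R) (u v : Fin 3 → R) :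
    (b *ᵥ u) ⨯₃ (b *ᵥ v) = b.adjugateᵀ *ᵥ (u ⨯₃ v) := by
  rw [adjugate_fin_three]
  funext i
  fin_cases i <;> simp [cross_apply, mulVec, dotProduct, Fin.sum_univ_three] <;> ring

theorem adj_orth {R : Type} [CommRing R] {b : Matrix (Fin 3) (Fin 3) R} (h : bᵀ * b = 1)
    (hd : b.det = 1) : b.adjugate = bᵀ := by
  rw [← Matrix.one_mul b.adjugate, ← h, Matrix.mul_assoc, mul_adjugate, hd, one_smul,
    Matrix.mul_one]

variable {A B : Type} [CommRing A] [Algebra ℂ A] [CommRing B] [Algebra ℂ B] {E : Ell}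

/-- The operator of `so(3)` defined by a vector. -/
def ht (ξ : Fin 3 → Ls A) : Matrix (Fin 3) (Fin 3) (Ls A) := SO3.hat ξ

theorem ht_mulVec (ξ m : Fin 3 → Ls A) : ht ξ *ᵥ m = io A Complex.I • (ξ ⨯₃ m) := by
  have h : ht ξ = ∑ i, ξ i • (b3 i).map (io A) := rfl
  rw [h, Fin.sum_univ_three]
  funext i
  fin_cases i <;> simp [b3, cross_apply, mulVec, dotProduct, Fin.sum_univ_three] <;> ring

theorem ht_skew (ξ : Fin 3 → Ls A) : (ht ξ)ᵀ = -ht ξ := by
  have h : (ht ξ)ᵀ * cst A (1 : Matrix (Fin 3) (Fin 3) ℂ) + cst A 1 * ht ξ = 0 := ok_SO3.hat_lie ξ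
  rw [cst_one, Matrix.mul_one, Matrix.one_mul] at h
  exact eq_neg_of_add_eq_zero_left h

theorem ht_act {b : Matrix (Fin 3) (Fin 3) (Ls A)} (h : bᵀ * b = 1) (hd : b.det = 1)
    (ξ : Fin 3 → Ls A) : ht (b *ᵥ ξ) * b = b * ht ξ :=
  Grp.mat_ext fun m => by
    rw [← mulVec_mulVec, ← mulVec_mulVec, ht_mulVec, ht_mulVec, cross_mulVec, adj_orth h hd,
      transpose_transpose, mulVec_smul]

/-- The functions on the complement of the origin. -/
def RR (E : Ell) (A : Type) [CommRing A] [Algebra ℂ A] : Subring (Ls A) where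
  carrier := {w | E.Reg w}
  mul_mem' := P286ER.reg_mul
  one_mem' := P286ER.reg_one
  add_mem' := P286ER.reg_add
  zero_mem' := P286ER.reg_zero
  neg_mem' := P286ER.reg_neg

theorem C_mem (a : A) : (HahnSeries.C a : Ls A) ∈ RR E A := P286ER.reg_C a

theorem xs_mem : xs A ∈ RR E A := P286ER.reg_x

theorem ys_mem : ys E A ∈ RR E A := P286ER.reg_y

theorem ent_C (X : Matrix (Fin 3) (Fin 3) A) : Ent (RR E A) (cm X) := fun _ _ => C_mem _

theorem reg_two {r : Ls A} (hr : r ∈ RR E A) (h : Ord (-2) r) :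
    ∃ c : A, r = HahnSeries.C (r.coeff (-2)) * xs A + HahnSeries.C c := by
  have h1 : Ord (-2 + 1) (r - HahnSeries.C (r.coeff (-2)) * xs A) :=
    ord_succ (h.sub ((Ord.C _).mul_left ord_xs)) (by
      rw [HahnSeries.coeff_sub, C_mul, HahnSeries.coeff_smul, xs_coeff, smul_eq_mul, mul_one,
        sub_self])
  have h2 := P286ER.reg_h0 ((RR E A).sub_mem hr ((RR E A).mul_mem (C_mem _) xs_mem)) h1
  exact ⟨_, (sub_eq_iff_eq_add.1 h2).trans (add_comm _ _)⟩

theorem lead_det {S : Matrix (Fin 3) (Fin 3) (Ls A)} (hS : Lead (-1) S 1) :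
    Ord (-3) S.det ∧ S.det.coeff (-3) = 1 := by
  have h1 : Lead (1 + -1) (tp A 1 • S) 1 :=
    Lead.smul (Ord.tp 1) (HahnSeries.coeff_single_same _ _) hS
  have h2 := P286EB.det_coeff (a := tp A 1 • S) h1.1
  have h3 : (tp A 1 • S).map (fun w => w.coeff 0) = 1 := Matrix.ext h1.2
  have h4 : (tp A 1 • S).det = tp A 3 * S.det := by
    rw [det_smul, Fintype.card_fin, pow_succ, pow_two, tp_mul, tp_mul]; rfl
  have h5 : Ord (3 + -3) (tp A 3 * S.det) := h4 ▸ IntM.det (a := tp A 1 • S) h1.1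
  rw [h3, det_one, h4, coeff_tp_mul] at h2
  exact ⟨ord_tp_mul.1 h5, h2⟩

/-- The inverse of a matrix with the Gram matrix `x - X`. -/
def sinv (S : Matrix (Fin 3) (Fin 3) (Ls A)) (X : Matrix (Fin 3) (Fin 3) A) :
    Matrix (Fin 3) (Fin 3) (Ls A) := rhoI X * rhoI X * Sᵀ

/-- The frame of a lattice. -/
structure IsS (E : Ell) (S : Matrix (Fin 3) (Fin 3) (Ls A)) (X : Matrix (Fin 3) (Fin 3) A) :
    Prop where
  lead : Lead (-1) S 1
  gram : Sᵀ * S = xs A • 1 - cm X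
  det : S.det = ys E A

variable {S W : Matrix (Fin 3) (Fin 3) (Ls A)} {X Z : Matrix (Fin 3) (Fin 3) A}

theorem IsS.inv_mul (h : IsS E S X) : sinv S X * S = 1 := by
  rw [sinv, Matrix.mul_assoc, h.gram, ← rho_mul_rho, Matrix.mul_assoc, ← Matrix.mul_assoc (rhoI X) (rho X),
    rhoI_mul_rho, Matrix.one_mul, rhoI_mul_rho]

theorem IsS.mul_inv (h : IsS E S X) : S * sinv S X = 1 := mul_eq_one_comm.1 h.inv_mul

theorem IsS.lead_inv (h : IsS E S X) : Lead 1 (sinv S X) 1 :=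
  (((lead_rhoI X).mul (lead_rhoI X)).mul h.lead.transpose).cast (by norm_num) (by simp)

theorem IsS.adj (h : IsS E S X) : S.adjugate = ys E A • sinv S X := by
  rw [← Matrix.one_mul S.adjugate, ← h.inv_mul, Matrix.mul_assoc, mul_adjugate, h.det,
    Matrix.mul_smul, Matrix.mul_one]

theorem IsS.lead_adj (h : IsS E S X) : Lead (-2) S.adjugate 1 :=
  h.adj ▸ (Lead.smul (P286ER.ord_ys E) (P286ER.ys_lead E) h.lead_inv).cast (by norm_num) rfl

theorem IsS.unit (h : IsS E S X) : IsUnit (ys E A) :=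
  h.det ▸ (isUnit_iff_isUnit_det S).1 (IsUnit.of_mul_eq_one _ h.mul_inv)

theorem xs_inj {P Q P' Q' : Matrix (Fin 3) (Fin 3) A}
    (h : xs A • cm P - cm Q = xs A • cm P' - cm Q') : P = P' ∧ Q = Q' := by
  have key : ∀ P Q : Matrix (Fin 3) (Fin 3) A, Lead (-2) (xs A • cm P - cm Q) P := fun P Q =>
    ((Lead.smul ord_xs xs_coeff (lead_cm P)).cast (by norm_num) rfl).sub_ord
      ((lead_cm Q).ord.mono (by norm_num))
  obtain rfl : P = P' := (key P Q).uniq (h ▸ key P' Q')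
  exact ⟨rfl, cm_inj (sub_right_injective h)⟩

theorem IsS.symm (h : IsS E S X) : Xᵀ = X := by
  have h1 : (xs A • (1 : Matrix (Fin 3) (Fin 3) (Ls A)) - cm X)ᵀ = xs A • 1 - cm X := by
    rw [← h.gram, transpose_mul, transpose_transpose]
  rw [transpose_sub, transpose_smul, transpose_one, cm_transpose] at h1
  exact cm_inj (sub_right_injective h1)

theorem evx_charpoly (X : Matrix (Fin 3) (Fin 3) A) :
    evx A X.charpoly = (xs A • (1 : Matrix (Fin 3) (Fin 3) (Ls A)) - cm X).det := by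
  rw [charpoly, RingHom.map_det]
  congr 1
  ext1 i j
  rw [RingHom.mapMatrix_apply, Matrix.map_apply, charmatrix_apply, map_sub, evx_C,
    Matrix.sub_apply, cm_apply, Matrix.smul_apply, diagonal_apply, one_apply]
  split_ifs
  · rw [evx_X, smul_eq_mul, mul_one]
  · rw [map_zero, smul_zero]

/-- The cubic polynomial. -/
def fp (E : Ell) (A : Type) [CommRing A] [Algebra ℂ A] : Polynomial A :=
  Polynomial.X ^ 3 + Polynomial.C (algebraMap ℂ A E.a) * Polynomial.X +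
    Polynomial.C (algebraMap ℂ A E.b)

theorem evx_fp : evx A (fp E A) = ys E A ^ 2 := by
  rw [P286ER.ys_sq, fp, map_add, map_add, map_pow, map_mul, evx_X, evx_C, evx_C]

theorem IsS.sym (h : IsS E S X) {e : Fin 3 → ℂ} (he : ∀ i, e i ^ 3 + E.a * e i + E.b = 0) :
    Sym e X := by
  refine ⟨h.symm, fun i => ?_⟩
  have h1 : evx A (X.charpoly - fp E A) + evx A 0 * ys E A = 0 := by
    rw [map_sub, evx_charpoly, evx_fp, ← h.gram, det_mul, det_transpose, h.det, map_zero]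
    ring
  have h2 := congrArg (Polynomial.eval (algebraMap ℂ A (e i)))
    (sub_eq_zero.1 (P286ER.rep_zero (E := E) h1).1)
  rw [eval_charpoly, fp] at h2
  simp only [Polynomial.eval_add, Polynomial.eval_pow, Polynomial.eval_X, Polynomial.eval_mul,
    Polynomial.eval_C] at h2
  rw [← map_pow, ← map_mul, ← map_add, ← map_add, he, map_zero] at h2
  rw [← neg_sub, det_neg, smul_one_eq_diagonal]
  exact (congrArg (_ * ·) h2).trans (mul_zero _)

theorem IsS.map (h : IsS E S X) (f : A →ₐ[ℂ] B) :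
    IsS E (S.map (lm (f : A →+* B))) (X.map f) := by
  refine ⟨(h.lead.map _).cast rfl (Matrix.map_one _ (map_zero _) (map_one _)), ?_, ?_⟩
  · have h1 := congrArg (fun m => m.map (lm (f : A →+* B))) h.gram
    simp only [Matrix.map_mul, transpose_map] at h1
    rw [h1, Matrix.map_sub _ (map_sub _), map_smul_lm, lm_xs, cm_map,
      Matrix.map_one _ (map_zero _) (map_one _)]
    rfl
  · rw [← RingHom.mapMatrix_apply, ← RingHom.map_det, h.det, ys, ys, lm_lm, AlgHom.comp_algebraMap]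

/-- The vector pairs integrally with the columns of `S` and with their vector products. -/
def Du (E : Ell) (S : Matrix (Fin 3) (Fin 3) (Ls A)) (ξ : Fin 3 → Ls A) : Prop :=
  (∀ i, (Sᵀ *ᵥ ξ) i ∈ RR E A) ∧ ∀ i, (S.adjugate *ᵥ ξ) i ∈ RR E A

theorem Du.sub {ξ η : Fin 3 → Ls A} (h : Du E S ξ) (h' : Du E S η) : Du E S (ξ - η) :=
  ⟨fun i => by rw [mulVec_sub]; exact sub_mem (h.1 i) (h'.1 i),
    fun i => by rw [mulVec_sub]; exact sub_mem (h.2 i) (h'.2 i)⟩

theorem IsS.du_zero (h : IsS E S X) {o : Fin 3 → Ls A} (ho : ∀ i, Ord 0 (o i)) (hd : Du E S o) :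
    o = 0 := by
  have hT : Lead (-1) Sᵀ 1 := h.lead.transpose.cast rfl transpose_one
  have c : ∀ {r : Ls A}, r ∈ RR E A → Ord (-1) r → r.coeff (-1) = 0 := fun hr h0 => by
    rw [P286ER.reg_h0 hr h0]
    exact HahnSeries.coeff_single_of_ne (by norm_num)
  have h1 : ∀ i, Ord (0 + 1) (o i) := fun i => ord_succ (ho i)
    ((hT.coeff_mulVec ho i).symm.trans (c (hd.1 i) (hT.ord.mulVec ho i)))
  have h2 : ∀ i, Ord (0 + 1 + 1) (o i) := fun i => ord_succ (h1 i)
    ((h.lead_adj.coeff_mulVec h1 i).symm.trans (c (hd.2 i) (h.lead_adj.ord.mulVec h1 i)))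
  have h3 : Sᵀ *ᵥ o = 0 := funext fun i => P286ER.reg_eq_zero (hd.1 i) (hT.ord.mulVec h2 i)
  rw [← one_mulVec o, ← transpose_one, ← h.mul_inv, transpose_mul, ← mulVec_mulVec, h3,
    mulVec_zero]

/-- An orthogonal lattice without cohomology. -/
structure OL (E : Ell) (M : Submodule A (Fin 3 → Ls A)) : Prop where
  cpl : IsCompl M (LinearMap.ker (pol 3 A))
  reg : Stab (RR E A) M
  form : ∀ m ∈ M, ∀ m' ∈ M, m ⬝ᵥ m' ∈ RR E A
  vol : ∀ m : Fin 3 → Fin 3 → Ls A, (∀ i, m i ∈ M) → (of m).det ∈ RR E A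

variable {M : Submodule A (Fin 3 → Ls A)}

theorem OL.dec (h : OL E M) (ξ : Fin 3 → Ls A) : ∃ m ∈ M, ∀ i, Ord 0 ((ξ - m) i) := by
  have hm : ξ ∈ M ⊔ LinearMap.ker (pol 3 A) := by rw [h.cpl.sup_eq_top]; trivial
  obtain ⟨y, hy, z, hz, e⟩ := Submodule.mem_sup.1 hm
  exact ⟨y, hy, by rw [← e, add_sub_cancel_left]; exact pol_eq_zero.1 hz⟩

theorem OL.det (h : OL E M) (hW : Col M W) : W.det ∈ RR E A := det_transpose W ▸ h.vol _ hW

theorem OL.col_eq (h : OL E M) (hS : Col M S) (hl : Lead (-1) S 1) (hW : Col M W)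
    (hZ : Lead (-1) W Z) : W = S * cm Z :=
  sub_eq_zero.1 (Col.eq_zero h.cpl.disjoint (hW.sub (hS.mul h.reg (ent_C Z)))
    (hZ.sub ((hl.mul (lead_cm Z)).cast (by norm_num) (Matrix.one_mul Z))))

theorem OL.exists_S (h : OL E M) : ∃ S X, Col M S ∧ IsS E S X := by
  choose y hy e using fun j : Fin 3 => h.dec (Pi.single j (tp A (-1)))
  let S : Matrix (Fin 3) (Fin 3) (Ls A) := of fun i j => y j i
  have hS : Col M S := hy
  have hl : Lead (-1) S 1 := by
    have h1 : Lead (-1 + 0) (tp A (-1) • (1 : Matrix (Fin 3) (Fin 3) (Ls A))) 1 :=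
      Lead.smul (Ord.tp _) (HahnSeries.coeff_single_same _ _) lead_one
    have h2 : OrdM (-1 + 0 + 1) (tp A (-1) • (1 : Matrix (Fin 3) (Fin 3) (Ls A)) - S) :=
      fun i j => by
        have h3 := e j i
        rwa [Pi.sub_apply, Pi.single_apply, ← mul_boole, ← one_apply] at h3
    have h3 := h1.sub_ord h2
    rwa [sub_sub_cancel] at h3
  have hG : Lead (-1 + -1) (Sᵀ * S) (1ᵀ * 1) := hl.transpose.mul hl
  choose c hc using fun i j => reg_two (r := (Sᵀ * S) i j) (h.form _ (hS i) _ (hS j)) (hG.1 i j)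
  have hg : Sᵀ * S = xs A • 1 - cm (-of c) := by
    ext1 i j
    rw [hc i j, show ((Sᵀ * S) i j).coeff (-2) = _ from hG.2 i j, transpose_one, Matrix.mul_one,
      cm_neg, sub_neg_eq_add, Matrix.add_apply, Matrix.smul_apply, ← cm_one, smul_eq_mul, mul_comm]
    rfl
  refine ⟨S, -of c, hS, hl, hg, ?_⟩
  have hd : Ord (-3 + 1) (S.det - ys E A) := ord_succ ((lead_det hl).1.sub (P286ER.ord_ys E)) (by
    rw [HahnSeries.coeff_sub, (lead_det hl).2, P286ER.ys_lead, sub_self])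
  obtain ⟨β, hβ⟩ := reg_two (sub_mem (h.det hS) ys_mem) hd
  generalize (S.det - ys E A).coeff (-2) = α at hβ
  let p : Polynomial A := Polynomial.C α * Polynomial.X + Polynomial.C β
  have hp : S.det = ys E A + evx A p := by
    rw [map_add, map_mul, evx_C, evx_C, evx_X, ← hβ, add_sub_cancel]
  have h1 : evx A (fp E A + p ^ 2 - (-of c).charpoly) + evx A (2 * p) * ys E A = 0 := by
    rw [map_sub, map_add, evx_charpoly, evx_fp, ← hg, det_mul, det_transpose, hp, map_pow, map_mul,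
      map_ofNat]
    ring
  have h2 : (2 : Ls A) * evx A p = 0 := by
    rw [← map_ofNat (evx A) 2, ← map_mul, (P286ER.rep_zero (E := E) h1).2, map_zero]
  rw [hp, ← one_mul (evx A p), ← iota_half (io A), mul_assoc, h2, mul_zero, add_zero]

theorem OL.du (h : OL E M) (hS : Col M S) {m : Fin 3 → Ls A} (hm : m ∈ M) : Du E S m := by
  refine ⟨fun i => h.form _ (hS i) _ hm, fun i => ?_⟩
  rw [← cramer_eq_adjugate_mulVec, cramer_apply]
  refine h.det fun j => ?_
  by_cases hj : j = i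
  · simpa only [hj, updateCol_self] using hm
  · simpa only [updateCol_ne hj] using hS j

theorem OL.mem (h : OL E M) (hS : Col M S) (hX : IsS E S X) {ξ : Fin 3 → Ls A} (hξ : Du E S ξ) :
    ξ ∈ M := by
  obtain ⟨m, hm, ho⟩ := h.dec ξ
  rwa [sub_eq_zero.1 (hX.du_zero ho (hξ.sub (h.du hS hm)))]

theorem OL.cross (h : OL E M) {m m' : Fin 3 → Ls A} (hm : m ∈ M) (hm' : m' ∈ M) :
    m ⨯₃ m' ∈ M := by
  obtain ⟨S, X, hS, hX⟩ := h.exists_S
  refine h.mem hS hX ⟨fun i => ?_, fun i => ?_⟩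
  · have h1 := h.vol ![fun k => S k i, m, m'] fun j => by
      fin_cases j
      exacts [hS i, hm, hm']
    exact (congrArg (· ∈ RR E A) (triple_product_eq_det (fun k => S k i) m m')).mpr h1
  · have h1 := cross_mulVec Sᵀ m m'
    rw [← adjugate_transpose, transpose_transpose] at h1
    have a := (h.du hS hm).1
    have b := (h.du hS hm').1
    rw [← h1, cross_apply]
    fin_cases i <;> exact sub_mem (mul_mem (a _) (b _)) (mul_mem (a _) (b _))

theorem OL.lie (h : OL E M) {ξ m : Fin 3 → Ls A} (hξ : ξ ∈ M) (hm : m ∈ M) : ht ξ *ᵥ m ∈ M := by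
  rw [ht_mulVec]
  exact h.reg _ (C_mem _) _ (h.cross hξ hm)

theorem OL.stab (skw : SKW) {e : Fin 3 → ℂ} (he : ∀ i, e i ^ 3 + E.a * e i + E.b = 0)
    (hi : Function.Injective e) (h : OL E M) {ξ : Fin 3 → Ls A} (hξ : ∀ m ∈ M, ht ξ *ᵥ m ∈ M) :
    ξ ∈ M := by
  obtain ⟨S, X, hS, hX⟩ := h.exists_S
  obtain ⟨m, hm, ho⟩ := h.dec ξ
  have h1 : Col M (ht (ξ - m) * S) := hS.act fun u hu => by
    rw [show ht (ξ - m) = ht ξ - ht m from Grp.hat_sub ξ m, sub_mulVec]
    exact sub_mem (hξ u hu) (h.lie hm hu)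
  have h2 : OrdM (0 + -1) (ht (ξ - m) * S) :=
    OrdM.mul (IntM.hat (G := SO3) ho) hX.lead.ord
  have h3 := h.col_eq hS hX.lead h1 h2.lead
  generalize (of fun i j => ((ht (ξ - m) * S) i j).coeff (0 + -1)) = Z at h3
  have h4 : xs A • cm Zᵀ - cm (Zᵀ * X) = xs A • cm (-Z) - cm (-(X * Z)) := by
    have h5 : (Sᵀ * (ht (ξ - m) * S))ᵀ = -(Sᵀ * (ht (ξ - m) * S)) := by
      rw [transpose_mul, transpose_mul, transpose_transpose, ht_skew, Matrix.mul_neg,
        Matrix.neg_mul, Matrix.mul_assoc]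
    rw [h3, ← Matrix.mul_assoc, transpose_mul, transpose_mul, transpose_transpose, hX.gram,
      cm_transpose] at h5
    rw [cm_mul, cm_neg, cm_neg, cm_mul, smul_neg, ← neg_sub']
    simpa only [Matrix.mul_sub, Matrix.sub_mul, Matrix.mul_smul, Matrix.smul_mul, Matrix.mul_one,
      Matrix.one_mul] using h5
  obtain ⟨h5, h6⟩ := xs_inj h4
  rw [h5, Matrix.neg_mul, neg_inj] at h6
  rw [skw e hi A X Z (hX.sym he) h5 h6, cm_zero, Matrix.mul_zero] at h3
  have h7 : ht (ξ - m) = ht 0 := by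
    rw [← Matrix.mul_one (ht (ξ - m)), ← hX.mul_inv, ← Matrix.mul_assoc, h3, Matrix.zero_mul]
    exact (Grp.hat_zero (G := SO3)).symm
  rwa [sub_eq_zero.1 (ok_SO3.hat_inj h7)]

end

end Vale.Agent.P286EJ
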