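import Vale.Agent.P286EJ.Lat
import Vale.Agent.P286EN.Univ
import Vale.Agent.P286EF.Ob

/-!
# The lattice defined by a frame; morphisms of lattices
-/

set_option linter.all false

namespace Vale.Agent.P286EJ

open Matrix Vale.Agent.P286 Vale.Agent.P286E
open Vale.Agent.P286EN hiding ys lm_ys
open Vale.Agent.P286ER (ys)

noncomputable section

attribute [-instance] HahnSeries.powerSeriesAlgebra

variable {A B : Type} [CommRing A] [Algebra ℂ A] [CommRing B] [Algebra ℂ B] {E : Ell}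
  {S W : Matrix (Fin 3) (Fin 3) (Ls A)} {X : Matrix (Fin 3) (Fin 3) A}

theorem Du.smul {ξ : Fin 3 → Ls A} (h : Du E S ξ) {w : Ls A} (hw : w ∈ RR E A) : Du E S (w • ξ) :=
  ⟨fun i => by rw [mulVec_smul]; exact mul_mem hw (h.1 i),
    fun i => by rw [mulVec_smul]; exact mul_mem hw (h.2 i)⟩

/-- The lattice defined by a frame. -/
def duM (E : Ell) (S : Matrix (Fin 3) (Fin 3) (Ls A)) : Submodule A (Fin 3 → Ls A) where
  carrier := {ξ | Du E S ξ}
  add_mem' h h' := ⟨fun i => by rw [mulVec_add]; exact add_mem (h.1 i) (h'.1 i),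
    fun i => by rw [mulVec_add]; exact add_mem (h.2 i) (h'.2 i)⟩
  zero_mem' := ⟨fun i => by rw [mulVec_zero]; exact zero_mem _,
    fun i => by rw [mulVec_zero]; exact zero_mem _⟩
  smul_mem' c ξ h := by rw [csmul]; exact Du.smul h (C_mem c)

theorem stab_duM : Stab (RR E A) (duM E S) := fun _ hw _ hm => Du.smul hm hw

theorem px_le : Px A ≤ RR E A := Px_le_Rg E

theorem ent_adj (h : Ent (RR E A) W) : Ent (RR E A) W.adjugate := by
  have key : ∀ a b c d e f g k, W a b * W c d - W e f * W g k ∈ RR E A := fun _ _ _ _ _ _ _ _ =>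
    sub_mem (mul_mem (h _ _) (h _ _)) (mul_mem (h _ _) (h _ _))
  have key' : ∀ a b c d e f g k, -(W a b * W c d) + W e f * W g k ∈ RR E A :=
    fun _ _ _ _ _ _ _ _ => add_mem (neg_mem (mul_mem (h _ _) (h _ _))) (mul_mem (h _ _) (h _ _))
  rw [adjugate_fin_three]
  intro i j
  fin_cases i <;> fin_cases j <;> first | exact key _ _ _ _ _ _ _ _ | exact key' _ _ _ _ _ _ _ _

theorem ent_y : Ent (RR E A) (ys E A • (1 : Matrix (Fin 3) (Fin 3) (Ls A))) := ent_one.smul ys_mem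

theorem col_duM (h1 : Ent (RR E A) (Sᵀ * W)) (h2 : Ent (RR E A) (S.adjugate * W)) :
    Col (duM E S) W := fun j => ⟨fun i => h1 i j, fun i => h2 i j⟩

theorem IsS.col (h : IsS E S X) : Col (duM E S) S :=
  col_duM (h.gram ▸ (ent_xX X).mono px_le) (by rw [adjugate_mul, h.det]; exact ent_y)

theorem IsS.col' (h : IsS E S X) : Col (duM E S) S.adjugateᵀ :=
  col_duM (by rw [← transpose_mul, adjugate_mul, h.det]; exact ent_y.transpose) (by
    rw [adjugate_transpose, ← adjugate_mul_distrib, h.gram]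
    exact ent_adj ((ent_xX X).mono px_le))

theorem IsS.lat (h : IsS E S X) : Cpl (duM E S) ∧ Lat S S.adjugateᵀ = duM E S := by
  have h1 : Cpl (Lat S S.adjugateᵀ) :=
    cpl_lat h.lead (h.lead_adj.transpose.cast rfl transpose_one)
  have h2 : Lat S S.adjugateᵀ ≤ duM E S :=
    lat_le (fun w hw => stab_duM w (px_le hw)) h.col h.col'
  have h3 : Cpl (duM E S) := cpl_of (fun m hm ho => h.du_zero ho hm) fun v =>
    (h1.exists v).imp fun m hm => ⟨h2 hm.1, hm.2⟩
  exact ⟨h3, h1.eq_of_le h3 h2⟩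

theorem dot_mem {u v : Fin 3 → Ls A} (hu : ∀ i, u i ∈ RR E A) (hv : ∀ i, v i ∈ RR E A) :
    u ⬝ᵥ v ∈ RR E A := sum_mem fun i _ => mul_mem (hu i) (hv i)

theorem cross_mem {u v : Fin 3 → Ls A} (hu : ∀ i, u i ∈ RR E A) (hv : ∀ i, v i ∈ RR E A) (i) :
    (u ⨯₃ v) i ∈ RR E A := by
  rw [cross_apply]
  fin_cases i <;> exact sub_mem (mul_mem (hu _) (hv _)) (mul_mem (hu _) (hv _))

theorem IsS.form (h : IsS E S X) : ∀ m ∈ duM E S, ∀ m' ∈ duM E S, m ⬝ᵥ m' ∈ RR E A := by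
  intro m hm m' hm'
  rw [← h.lat.2] at hm'
  obtain ⟨u, v, hu, hv, rfl⟩ := hm'
  rw [dotProduct_add, dotProduct_mulVec, dotProduct_mulVec, vecMul_transpose, ← mulVec_transpose]
  exact add_mem (dot_mem hm.1 fun i => px_le (hu i)) (dot_mem hm.2 fun i => px_le (hv i))

theorem IsS.ol (h : IsS E S X) : OL E (duM E S) := by
  refine ⟨h.lat.1, stab_duM, h.form, fun m hm => ?_⟩
  let G : Bool → (Fin 3 → Ls A) → Prop := fun b a => ∃ u : Fin 3 → Ls A, (∀ i, u i ∈ RR E A) ∧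
    a = (bif b then S else S.adjugateᵀ) *ᵥ u
  have g1 : ∀ b a, G b a → a ∈ duM E S := by
    rintro (_ | _) _ ⟨u, hu, rfl⟩
    exacts [h.col'.mulVec stab_duM hu, h.col.mulVec stab_duM hu]
  have g2 : ∀ b a c, G b a → G b c → a ⨯₃ c ∈ duM E S := by
    rintro (_ | _) _ _ ⟨u, hu, rfl⟩ ⟨v, hv, rfl⟩
    · rw [cross_mulVec, cond_false, ← adjugate_transpose, transpose_transpose,
        adjugate_adjugate _ (by simp), smul_mulVec, h.det]
      exact stab_duM _ (pow_mem ys_mem _) _ (h.col.mulVec stab_duM (cross_mem hu hv))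
    · rw [cross_mulVec]
      exact h.col'.mulVec stab_duM (cross_mem hu hv)
  have g3 : ∀ {i j k a b c}, G i a → G j b → G k c → a ⬝ᵥ b ⨯₃ c ∈ RR E A := by
    intro i j k a b c ha hb hc
    by_cases h1 : j = k
    · exact h.form _ (g1 _ _ ha) _ (g2 _ _ _ hb (h1 ▸ hc))
    · rw [triple_product_permutation]
      by_cases h2 : k = i
      · exact h.form _ (g1 _ _ hb) _ (g2 _ _ _ hc (h2 ▸ ha))
      · rw [triple_product_permutation]
        have h3 : i = j := by revert h1 h2; cases i <;> cases j <;> cases k <;> simp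
        exact h.form _ (g1 _ _ hc) _ (g2 _ _ _ ha (h3 ▸ hb))
  have g4 : ∀ i, ∃ a b, G true a ∧ G false b ∧ m i = a + b := fun i => by
    have h1 := hm i
    rw [← h.lat.2] at h1
    obtain ⟨u, v, hu, hv, e⟩ := h1
    exact ⟨_, _, ⟨u, fun i => px_le (hu i), rfl⟩, ⟨v, fun i => px_le (hv i), rfl⟩, e⟩
  choose a b ha hb e using g4
  have h1 : (of m).det = m 0 ⬝ᵥ m 1 ⨯₃ m 2 := by
    rw [triple_product_eq_det]
    congr 1
    funext i
    fin_cases i <;> rfl
  rw [h1, e, e, e]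
  simp only [map_add, LinearMap.add_apply, dotProduct_add, add_dotProduct]
  exact add_mem (add_mem (add_mem (g3 (ha 0) (ha 1) (ha 2)) (g3 (hb 0) (ha 1) (ha 2)))
    (add_mem (g3 (ha 0) (hb 1) (ha 2)) (g3 (hb 0) (hb 1) (ha 2))))
    (add_mem (add_mem (g3 (ha 0) (ha 1) (hb 2)) (g3 (hb 0) (ha 1) (hb 2)))
    (add_mem (g3 (ha 0) (hb 1) (hb 2)) (g3 (hb 0) (hb 1) (hb 2))))

/-! ### The diagonal frame -/

theorem exists_roots (E : Ell) : ∃ e : Fin 3 → ℂ, Function.Injective e ∧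
    e 0 + e 1 + e 2 = 0 ∧ e 0 * e 1 + e 0 * e 2 + e 1 * e 2 = E.a ∧ e 0 * e 1 * e 2 = -E.b := by
  obtain ⟨z, hz⟩ := Complex.exists_root (f := Polynomial.X ^ 3 + Polynomial.C E.a * Polynomial.X +
    Polynomial.C E.b) (by
      have : (Polynomial.X ^ 3 + Polynomial.C E.a * Polynomial.X + Polynomial.C E.b).degree = 3 := by
        compute_degree!
      rw [this]; norm_num)
  simp only [Polynomial.IsRoot.def, Polynomial.eval_add, Polynomial.eval_pow, Polynomial.eval_X,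
    Polynomial.eval_mul, Polynomial.eval_C] at hz
  obtain ⟨δ, hδ⟩ := IsAlgClosed.exists_eq_mul_self (-3 * z ^ 2 - 4 * E.a)
  have hd : 4 * E.a ^ 3 + 27 * E.b ^ 2 = -((3 * z - δ) * (3 * z + δ) * δ / 4) ^ 2 := by
    have ha : E.a = (-3 * z ^ 2 - δ * δ) / 4 := by linear_combination (-1 / 4) * hδ
    have hb : E.b = -(z ^ 3 + E.a * z) := by linear_combination hz
    rw [hb, ha]; ring
  have h0 : (3 * z - δ) * (3 * z + δ) * δ ≠ 0 := fun h => E.disc (by rw [hd, h]; norm_num)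
  have h1 := left_ne_zero_of_mul (left_ne_zero_of_mul h0)
  have h2 := right_ne_zero_of_mul (left_ne_zero_of_mul h0)
  have h3 := right_ne_zero_of_mul h0
  refine ⟨![z, (-z + δ) / 2, (-z - δ) / 2], fun i j h => ?_, ?_, ?_, ?_⟩
  · fin_cases i <;> fin_cases j <;> simp at h ⊢ <;>
      first
      | exact h1 (by linear_combination 2 * h)
      | exact h1 (by linear_combination (-2) * h)
      | exact h2 (by linear_combination 2 * h)
      | exact h2 (by linear_combination (-2) * h)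
      | exact h3 (by linear_combination h)
      | exact h3 (by linear_combination (-1) * h)
      | exact h3 (by linear_combination (1 / 2) * h)
      | exact h3 (by linear_combination (-1 / 2) * h)
  · simp; ring
  · simp; linear_combination (1 / 4) * hδ
  · simp; linear_combination hz + (z / 4) * hδ

theorem isS_diag {e : Fin 3 → ℂ} (h1 : e 0 + e 1 + e 2 = 0)
    (h2 : e 0 * e 1 + e 0 * e 2 + e 1 * e 2 = E.a) (h3 : e 0 * e 1 * e 2 = -E.b) :
    IsS E (rho (dm e ℂ)) (dm e ℂ) := by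
  have hg : (rho (dm e ℂ))ᵀ * rho (dm e ℂ) = xs ℂ • 1 - cm (dm e ℂ) := by
    rw [rho_transpose, dm, diagonal_transpose, rho_mul_rho]
  refine ⟨lead_rho _, hg, ?_⟩
  have h4 : (rho (dm e ℂ)).det * (rho (dm e ℂ)).det = ys E ℂ * ys E ℂ := by
    have h5 : xs ℂ • (1 : Matrix (Fin 3) (Fin 3) (Ls ℂ)) - cm (dm e ℂ) =
        diagonal fun i => xs ℂ - io ℂ (e i) := by
      rw [smul_one_eq_diagonal, dm, cm, diagonal_map (map_zero _), diagonal_sub]
      rfl
    have h6 := congrArg Matrix.det hg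
    rw [det_mul, det_transpose] at h6
    rw [← pow_two (ys E ℂ), P286ER.ys_sq, h6, h5, det_diagonal, Fin.prod_univ_three]
    have k1 := congrArg (io ℂ) h1
    have k2 := congrArg (io ℂ) h2
    have k3 := congrArg (io ℂ) h3
    simp only [map_add, map_mul, map_zero, map_neg] at k1 k2 k3
    change _ = _ + io ℂ E.a * _ + io ℂ E.b
    linear_combination (-(xs ℂ ^ 2)) * k1 + xs ℂ * k2 - k3
  rcases mul_self_eq_mul_self_iff.1 h4 with h | h
  · exact h
  · have h5 := (lead_det (lead_rho (dm e ℂ))).2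
    rw [h, HahnSeries.coeff_neg, P286ER.ys_lead] at h5
    norm_num at h5

theorem dm_map (e : Fin 3 → ℂ) (f : A →ₐ[ℂ] B) : (dm e A).map f = dm e B := by
  rw [dm, diagonal_map (map_zero _), dm]
  exact congrArg diagonal (funext fun i => f.commutes _)

/-! ### Morphisms -/

variable {M : Submodule A (Fin 3 → Ls A)} {S' b : Matrix (Fin 3) (Fin 3) (Ls A)}
  {X' h : Matrix (Fin 3) (Fin 3) A}

theorem IsS.conj (hS : IsS E S X) (hS' : IsS E S' X') (hb : bᵀ * b = 1) (hd : b.det = 1)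
    (e : b * S = S' * cm h) : hᵀ * h = 1 ∧ h.det = 1 ∧ h * X = X' * h := by
  have h1 : xs A • cm (hᵀ * h) - cm (hᵀ * X' * h) = xs A • cm 1 - cm X := by
    have h0 : Sᵀ * S = (b * S)ᵀ * (b * S) := by
      rw [transpose_mul, Matrix.mul_assoc, ← Matrix.mul_assoc bᵀ, hb, Matrix.one_mul]
    rw [cm_one, ← hS.gram, h0, e, transpose_mul, Matrix.mul_assoc (cm h)ᵀ,
      ← Matrix.mul_assoc S'ᵀ, hS'.gram,
      cm_transpose, Matrix.sub_mul, Matrix.mul_sub, Matrix.smul_mul, Matrix.mul_smul,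
      Matrix.one_mul, cm_mul, cm_mul, cm_mul, Matrix.mul_assoc]
  obtain ⟨h2, h3⟩ := xs_inj h1
  refine ⟨h2, ?_, by rw [← h3, ← Matrix.mul_assoc, ← Matrix.mul_assoc, mul_eq_one_comm.1 h2,
    Matrix.one_mul]⟩
  have h4 := congrArg Matrix.det e
  rw [det_mul, det_mul, hd, hS.det, hS'.det, mul_comm, hS.unit.mul_right_inj, cm,
    ← RingHom.mapMatrix_apply, ← RingHom.map_det] at h4
  exact HahnSeries.C_injective (h4.symm.trans (map_one _).symm)

theorem IsS.exists_b (hS : IsS E S X) (hS' : IsS E S' X') (h1 : hᵀ * h = 1) (h2 : h.det = 1)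
    (h3 : h * X = X' * h) : ∃ b : Matrix (Fin 3) (Fin 3) (Ls A), Lead 0 b h ∧ bᵀ * b = 1 ∧
      b.det = 1 ∧ ∀ ξ, Du E S ξ → Du E S' (b *ᵥ ξ) := by
  have e : S' * cm h * sinv S X * S = S' * cm h := by
    rw [Matrix.mul_assoc _ _ S, hS.inv_mul, Matrix.mul_one]
  have hl : Lead 0 (S' * cm h * sinv S X) h :=
    ((hS'.lead.mul (lead_cm h)).mul hS.lead_inv).cast (by norm_num) (by simp)
  generalize S' * cm h * sinv S X = b at e hl
  have hc : cm h * cm hᵀ = 1 := by rw [← cm_mul, mul_eq_one_comm.1 h1, cm_one]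
  have hg : (b * S)ᵀ * (b * S) = Sᵀ * S := by
    rw [e, transpose_mul, Matrix.mul_assoc, ← Matrix.mul_assoc S'ᵀ, hS'.gram, hS.gram,
      cm_transpose, Matrix.sub_mul, Matrix.mul_sub, Matrix.smul_mul, Matrix.mul_smul,
      Matrix.one_mul, ← cm_mul, ← cm_mul, ← cm_mul, h1, ← h3, ← Matrix.mul_assoc, h1,
      Matrix.one_mul, cm_one]
  have hb : bᵀ * b = 1 := by
    have h4 := congrArg (fun m => (sinv S X)ᵀ * m * sinv S X) hg
    simp only [transpose_mul, Matrix.mul_assoc, hS.mul_inv, Matrix.mul_one] at h4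
    rwa [← Matrix.mul_assoc, ← transpose_mul, hS.mul_inv, transpose_one, Matrix.one_mul] at h4
  have hdc : (cm h).det = 1 := by
    rw [cm, ← RingHom.mapMatrix_apply, ← RingHom.map_det, h2, map_one]
  have hd : b.det = 1 := by
    have h4 := congrArg Matrix.det e
    rwa [det_mul, det_mul, hS.det, hS'.det, hdc, mul_comm, hS.unit.mul_right_inj] at h4
  have e' : S' = b * S * cm hᵀ := by rw [e, Matrix.mul_assoc, hc, Matrix.mul_one]
  refine ⟨b, hl, hb, hd, fun ξ hξ => ⟨fun i => ?_, fun i => ?_⟩⟩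
  · rw [mulVec_mulVec, e', transpose_mul, transpose_mul, Matrix.mul_assoc, Matrix.mul_assoc, hb,
      Matrix.mul_one, ← mulVec_mulVec]
    exact (ent_C _).transpose.mulVec hξ.1 i
  · rw [mulVec_mulVec, e', adjugate_mul_distrib, adjugate_mul_distrib, Matrix.mul_assoc,
      Matrix.mul_assoc, adjugate_mul, hd, one_smul, Matrix.mul_one, ← mulVec_mulVec]
    exact (ent_adj (ent_C _)).mulVec hξ.2 i

theorem Du.map {ξ : Fin 3 → Ls A} (h : Du E S ξ) (f : A →ₐ[ℂ] B) :
    Du E (S.map (lm (f : A →+* B))) (lm (f : A →+* B) ∘ ξ) :=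
  ⟨fun i => by rw [← transpose_map, ← lm_mulVec]; exact P286ER.reg_lm f (h.1 i),
    fun i => by rw [adjugate_map, ← lm_mulVec]; exact P286ER.reg_lm f (h.2 i)⟩

theorem inG_of (hb : bᵀ * b = 1) (hd : b.det = 1) : InG SO3 b := by
  have h : bᵀ * cst A (1 : Matrix (Fin 3) (Fin 3) ℂ) * b = cst A 1 := by
    rw [cst_one, Matrix.mul_one, hb]
  exact ⟨hd, h⟩

theorem orth_of (h : InG SO3 b) : bᵀ * b = 1 := by
  have h1 : bᵀ * cst A (1 : Matrix (Fin 3) (Fin 3) ℂ) * b = cst A 1 := h.form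
  rwa [cst_one, Matrix.mul_one] at h1

theorem ad_eq (hb : bᵀ * b = 1) (hd : b.det = 1) (ξ : Fin 3 → Ls A) :
    Grp.ad SO3 b *ᵥ ξ = b *ᵥ ξ :=
  (Grp.Ok.eq_ad (G := SO3) (a := b) (ξ := ξ) (η := b *ᵥ ξ) ok_SO3 (inG_of hb hd)
    (ht_act hb hd ξ)).symm

end

end Vale.Agent.P286EJ
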