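import Vale.Agent.P286EJ.Asm
import Vale.Agent.P286EH.Gal

/-!
# The odd component
-/

set_option linter.all false

namespace Vale.Agent.P286EJ

open CategoryTheory Matrix Vale.Agent.P286 Vale.Agent.P286E Vale.Agent.P286EH Vale.Agent.P286EG
open Vale.Agent.P286EO (Sub)

noncomputable section

namespace OS

variable {T : St.TSite} {e : Fin 3 → ℂ} (O : OS T e) (he : Function.Injective e)

theorem dk_b (s : ℂ) (X : T.C) (k : K4) (v : (T.A X).Der) :
    1 * (O.gf he X v - O.σ he X k (O.gf he X v)) = s • etLift (O.fr he X).et v 1 := by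
  rw [gf, map_smul, O.σ_i, sub_self, mul_zero, Derivation.map_one_eq_zero, smul_zero]

/-- The deck transformations. -/
def dk (s : ℂ) (k : K4) : Ar (O.cv he s) (O.cv he s) where
  τ X := (⟨O.σ he X k, k⟩ : BM K4 _ _)
  f_i X := O.σ_i he X k
  nat φ := Sim.of_eq (BM.ext (O.σ_cm he φ k) ((mul_one _).trans (one_mul _).symm))
  unit _ := isUnit_one
  b X := O.dk_b he s X k

theorem ev_b (s : ℂ) (A : SmAlg) (v : A.Der) (w : (T.A (O.pt A)).Der) :
    1 * -O.ev he A (O.gf he (O.pt A) w + (O.fr he (O.pt A)).i 0) = s • v 1 := by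
  rw [gf, dlog, O.u_pt]
  simp

/-- The descent data. -/
def gal (s : ℂ) : Gal (O.j s) (O.cv he s) K4 where
  un := O.unit he s
  dk := O.dk he s
  one X := Sim.of_eq (BM.ext (O.σ_one he X) rfl)
  mul k l X := Sim.of_eq (BM.ext ((O.σ_mul he X k l).symm.trans (by rw [mul_comm]; rfl)) rfl)
  fmul k l X b := AlgHom.congr_fun ((O.σ_mul he X k l).symm.trans (by rw [mul_comm]; rfl)) b
  un_dk k X := Sim.of_eq (O.un_σ he X k)
  bij := O.ι_bij
  po := O.cv_po he s
  inj X := (O.fr he X).inj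
  inv X := (O.fr he X).inv (O.σ he X) (O.σ_i he X) (O.σ_h he X)
  ev A := (⟨O.ev he A, 1⟩ : BM K4 _ _)
  ev_i := O.ev_i he
  ev_unit _ := isUnit_one
  ev_b A v := O.ev_b he s A v _
  ev_nat ψ := ⟨BM.k ψ, Sim.of_eq (BM.ext (O.ev_nat he ψ)
    ((mul_one _).trans ((k4_sq _).symm.trans (congrArg (· * BM.k ψ) (mul_one _).symm))))⟩
  idem A := Or.inl ((O.ex_idem he A).imp fun _ h => h.2)

end OS

/-- **The odd component.** -/
theorem odd (bkv : BKV) (E : Ell) (c : ℂ) (U : Ob E SO3 → Prop) (hU : ∀ X, U X ↔ Odd X) :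
    EQV (WD.st (Sub (DE E SO3 c) U)) WD.v4 := by
  obtain rfl : U = Odd := funext fun X => propext (hU X)
  obtain ⟨e, he, ⟨O⟩⟩ := exists_os P286EJF.skw E c
  exact (O.gal he 0).eqv.trans (bkv 0)

end

end Vale.Agent.P286EJ
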