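import Vale.Agent.P286EJ.Lat2
import Vale.Agent.P286EO.Defs

/-!
# The test category of the odd component
-/

set_option linter.all false

namespace Vale.Agent.P286EJ

open CategoryTheory Matrix Vale.Agent.P286 Vale.Agent.P286E
open Vale.Agent.P286EN hiding ys lm_ys
open Vale.Agent.P286ER (ys Good)
open Vale.Agent.P286EO (Sub SO)

noncomputable section

attribute [-instance] HahnSeries.powerSeriesAlgebra

/-- A test category which describes the quotient of the symmetric matrices with the eigenvalues `e`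
by the rotations. -/
structure OS (T : St.TSite) (e : Fin 3 → ℂ) where
  good : Good T
  cen : ∀ X, T.cen X = ∅
  xm : ∀ X, Matrix (Fin 3) (Fin 3) (T.R X)
  sym : ∀ X, Sym e (xm X)
  hm : ∀ {X Y : T.C}, (X ⟶ Y) → Matrix (Fin 3) (Fin 3) (T.R Y)
  orth : ∀ {X Y : T.C} (φ : X ⟶ Y), (hm φ)ᵀ * hm φ = 1
  det : ∀ {X Y : T.C} (φ : X ⟶ Y), (hm φ).det = 1
  conj : ∀ {X Y : T.C} (φ : X ⟶ Y), hm φ * (xm X).map (T.f φ) = xm Y * hm φ
  hm_id : ∀ X, hm (𝟙 X) = 1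
  hm_comp : ∀ {X Y Z : T.C} (φ : X ⟶ Y) (ψ : Y ⟶ Z), hm (φ ≫ ψ) = hm ψ * (hm φ).map (T.f ψ)
  ext : ∀ {X Y : T.C} (φ ψ : X ⟶ Y), T.f φ = T.f ψ → hm φ = hm ψ → φ = ψ
  mk' : ∀ (X Y : T.C) (f : T.R X →ₐ[ℂ] T.R Y) (h : Matrix (Fin 3) (Fin 3) (T.R Y)), hᵀ * h = 1 →
    h.det = 1 → h * (xm X).map f = xm Y * h → ∃ φ : X ⟶ Y, T.f φ = f ∧ hm φ = h
  pt : SmAlg → T.C
  ι : ∀ A : SmAlg, A.R →ₐ[ℂ] T.R (pt A)
  κ : ∀ A : SmAlg, T.R (pt A) →ₐ[ℂ] A.R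
  κ_ι : ∀ A a, κ A (ι A a) = a
  ι_κ : ∀ A a, ι A (κ A a) = a
  xm_pt : ∀ A, xm (pt A) = dm e (T.R (pt A))
  u : ∀ X, (T.R X)ˣ
  u_pt : ∀ A, u (pt A) = 1
  dl : ∀ {X Y : T.C} (φ : X ⟶ Y), T.dl φ * T.f φ (u X) = u Y

variable {E : Ell}

section

variable {A : Type} [CommRing A] [Algebra ℂ A] {S S' b b' : Matrix (Fin 3) (Fin 3) (Ls A)}
  {X X' : Matrix (Fin 3) (Fin 3) A} {M : Submodule A (Fin 3 → Ls A)}

theorem IsS.cancel (h : IsS E S X) (e : b * S = b' * S) : b = b' := by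
  rw [← Matrix.mul_one b, ← h.mul_inv, ← Matrix.mul_assoc, e, Matrix.mul_assoc, h.mul_inv,
    Matrix.mul_one]

theorem OL.uniq (h : OL E M) (hS : Col M S) (hX : IsS E S X) (hS' : Col M S') (hX' : IsS E S' X') :
    X = X' := by
  have k1 := h.col_eq hS hX.lead hS' hX'.lead
  rw [cm_one, Matrix.mul_one] at k1
  have k2 := hX.gram
  rw [← k1, hX'.gram] at k2
  exact (cm_inj (sub_right_injective k2)).symm

end

theorem dl_pol {G : Grp} (hG : G.Ok) {X Y : Ob E G} (φ : Mo X Y) :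
    φ.dl * φ.f (fdet (pol 3 X.A.R ∘ₗ lin X.T)) = fdet (pol 3 Y.A.R ∘ₗ lin Y.T) := by
  have h1 := (φ.adm_tT hG).fdet_pol Y.admT (φ.tT_le hG)
  have h2 : fdet (pol 3 Y.A.R ∘ₗ lin φ.tT) = φ.f (fdet (pol 3 X.A.R ∘ₗ lin X.T)) := by
    rw [Mo.tT, fdet_pol_gau (X.admT.bc _).1 φ.intM.ad φ.intM.adjugate.ad (hG.ad_mul_adj φ.inG)
      (hG.ad_adj_mul φ.inG), ← bc_pol_lin]
    exact fdet_bc _ X.admT.1
  rw [← h2, h1, mul_left_comm, φ.dl_mul hG, mul_one]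

/-- The lattice of a test object. -/
def lat (X : Ob E SO3) : Submodule X.A.R (Fin 3 → Ls X.A.R) := X.M

theorem Odd.ol {X : Ob E SO3} (h : Odd X) : OL E (lat X) := by
  refine ⟨h, X.reg, fun m hm m' hm' => ?_, X.vol⟩
  have h1 : E.Reg (m ⬝ᵥ cst X.A.R (1 : Matrix (Fin 3) (Fin 3) ℂ) *ᵥ m') := X.form m hm m' hm'
  rwa [cst_one, one_mulVec] at h1

theorem Odd.range (skw : SKW) {X : Ob E SO3} (h : Odd X) :
    LinearMap.range (lin X.T) = lat X := by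
  obtain ⟨e, hi, h1, h2, h3⟩ := exists_roots E
  have he : ∀ i, e i ^ 3 + E.a * e i + E.b = 0 := fun i => by
    have hb : E.b = -(e 0 * e 1 * e 2) := by rw [h3, neg_neg]
    have h0 : e 2 = -e 0 - e 1 := by linear_combination h1
    rw [hb, ← h2]
    fin_cases i <;> simp [h0] <;> ring
  obtain ⟨v, hv, e'⟩ := exists_basis_of_isCompl h.ol.cpl
  rw [← e']
  refine X.admT.range_eq (adm_of_eq_one hv) (range_lin_le.2 fun p => ?_)
  rw [e']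
  exact h.ol.stab skw he hi (X.lie p)

/-- The test object defined by a frame. -/
theorem exists_ob (A : SmAlg) {S : Matrix (Fin 3) (Fin 3) (Ls A.R)} {X : Matrix (Fin 3) (Fin 3) A.R}
    (h : IsS E S X) : ∃ T : ℕ × Fin 3 → Fin 3 → Ls A.R, pol 3 A.R ∘ₗ lin T = 1 ∧
      P286ER.IsOb E SO3 (duM E S) T := by
  obtain ⟨v, hv, e⟩ := exists_basis_of_isCompl h.ol.cpl
  refine ⟨v, hv, ⟨v, adm_of_eq_one hv, e⟩, h.ol.reg, fun m hm m' hm' => ?_, h.ol.vol,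
    adm_of_eq_one hv, fun p m hm => h.ol.lie (e ▸ mem_range_lin v p) hm⟩
  have h1 : ∀ m ∈ duM E S, ∀ m' ∈ duM E S,
      E.Reg (m ⬝ᵥ cst A.R (1 : Matrix (Fin 3) (Fin 3) ℂ) *ᵥ m') := fun m hm m' hm' => by
    rw [cst_one, one_mulVec]
    exact h.form m hm m' hm'
  exact h1 m hm m' hm'

/-- The matrix of a morphism. -/
def ma {X Y : Ob E SO3} (φ : Mo X Y) : Matrix (Fin 3) (Fin 3) (Ls Y.A.R) := φ.a

/-- The constant term of a morphism. -/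
def h0 {X Y : Ob E SO3} (φ : Mo X Y) : Matrix (Fin 3) (Fin 3) Y.A.R :=
  of fun i j => (ma φ i j).coeff 0

theorem lead_h0 {X Y : Ob E SO3} (φ : Mo X Y) : Lead 0 (ma φ) (h0 φ) := ⟨φ.int, fun _ _ => rfl⟩

theorem ma_eq {X Y : Ob E SO3} (hY : Odd Y) (φ : Mo X Y) {S : Matrix (Fin 3) (Fin 3) (Ls X.A.R)}
    {S' : Matrix (Fin 3) (Fin 3) (Ls Y.A.R)} (hS : Col (lat X) S) (hl : Lead (-1) S 1)
    (hS' : Col (lat Y) S') (hl' : Lead (-1) S' 1) :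
    ma φ * S.map (lm φ.f.r) = S' * cm (h0 φ) :=
  hY.ol.col_eq hS' hl' (fun j => φ.lat _ (hS j)) (((lead_h0 φ).mul (hl.map φ.f.r)).cast (by norm_num)
    (by rw [Matrix.map_one _ (map_zero _) (map_one _), Matrix.mul_one]))

theorem exists_os (skw : SKW) (E : Ell) (c : ℂ) : ∃ e : Fin 3 → ℂ, Function.Injective e ∧
    Nonempty (OS (Sub (DE E SO3 c) Odd) e) := by
  obtain ⟨e, hi, h1, h2, h3⟩ := exists_roots E
  have he : ∀ i, e i ^ 3 + E.a * e i + E.b = 0 := fun i => by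
    have hb : E.b = -(e 0 * e 1 * e 2) := by rw [h3, neg_neg]
    have h0 : e 2 = -e 0 - e 1 := by linear_combination h1
    rw [hb, ← h2]
    fin_cases i <;> simp [h0] <;> ring
  choose S X hS hX using fun P : SO (DE E SO3 c) Odd => P.h.ol.exists_S
  have hD : ∀ A : SmAlg, IsS E ((rho (dm e ℂ)).map (lm (Algebra.ofId ℂ A.R : ℂ →+* A.R)))
      (dm e A.R) := fun A => dm_map e (Algebra.ofId ℂ A.R) ▸ (isS_diag h1 h2 h3).map _
  choose T hT hO using fun A => exists_ob A (hD A)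
  let pt : SmAlg → SO (DE E SO3 c) Odd := fun A => ⟨Ob.of A (hO A), (hD A).lat.1⟩
  have hu : ∀ P : SO (DE E SO3 c) Odd, IsUnit (fdet (pol 3 P.X.A.R ∘ₗ lin P.X.T)) := fun P =>
    P.X.admT.isUnit_iff.2 (by rw [P.h.range skw]; exact P.h)
  have key := fun (P Q : SO (DE E SO3 c) Odd) (φ : Mo P.X Q.X) =>
    ma_eq Q.h φ (hS P) (hX P).lead (hS Q) (hX Q).lead
  have key' := fun (P Q : SO (DE E SO3 c) Odd) (φ : Mo P.X Q.X) =>
    ((hX P).map φ.f).conj (hX Q) (orth_of φ.inG) φ.det (key P Q φ)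
  refine ⟨e, hi, ⟨{
    good := ⟨fun _ => rfl, fun _ _ => rfl, fun φ => Mo.dl_unit ok_SO3 φ,
      fun φ ψ => Mo.dl_comp ok_SO3 φ ψ⟩
    cen := fun _ => rfl
    xm := X
    sym := fun P => (hX P).sym he
    hm := fun φ => h0 φ
    orth := fun φ => (key' _ _ φ).1
    det := fun φ => (key' _ _ φ).2.1
    conj := fun φ => (key' _ _ φ).2.2
    hm_id := fun P => (lead_h0 (Mo.one P.X)).uniq lead_one
    hm_comp := fun φ ψ => (lead_h0 (Mo.comp φ ψ)).uniq ((lead_h0 ψ).mul ((lead_h0 φ).map _))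
    ext := fun {P Q} φ ψ hf hh => Mo.ext hf ?_
    mk' := fun P Q f h a1 a2 a3 => ?_
    pt := pt
    ι := fun A => AlgHom.id ℂ A.R
    κ := fun A => AlgHom.id ℂ A.R
    κ_ι := fun _ _ => rfl
    ι_κ := fun _ _ => rfl
    xm_pt := fun A => ?_
    u := fun P => (hu P).unit
    u_pt := fun A => Units.ext ((congrArg fdet (hT A)).trans fdet_one)
    dl := fun φ => dl_pol ok_SO3 φ }⟩⟩
  · have k1 := key P Q φ
    have k2 := key P Q ψ
    have k3 : Mo.f φ = Mo.f ψ := hf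
    have k4 : h0 φ = h0 ψ := hh
    rw [k4, ← k2, k3] at k1
    exact ((hX P).map (Mo.f ψ)).cancel k1
  · obtain ⟨b, b1, b2, b3, b4⟩ := ((hX P).map f).exists_b (hX Q) a1 a2 a3
    have b5 : ∀ m ∈ lat P.X, b *ᵥ (lm (SmAlg.Hm.r f) ∘ m) ∈ lat Q.X := fun m hm =>
      Q.h.ol.mem (hS Q) (hX Q) (b4 _ ((P.h.ol.du (hS P) hm).map f))
    refine ⟨Mo.mk' ok_SO3 f b b1.1 (inG_of b2 b3) b5 fun p => ?_, rfl, Matrix.ext b1.2⟩
    rw [Q.h.range skw]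
    refine (congrArg (· ∈ lat Q.X) (ad_eq b2 b3 _)).mpr (b5 _ ?_)
    rw [← P.h.range skw]
    exact mem_range_lin _ p
  · exact (pt A).h.ol.uniq (hS (pt A)) (hX (pt A)) (hD A).col (hD A)

end

end Vale.Agent.P286EJ
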